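import Mathlib
import Vale.Agent.Helper21.SidLemmas

/-!
# P050: the Sidorenko inequality against complete bipartite hosts

For every bipartite graph `H` and every complete bipartite graph `G` (with parts `A` and
its complement, of arbitrary sizes), `t(H,G) ≥ p(G)^{|E(H)|}`.
-/

open Finset

namespace Vale.Agent.Results.P050.CompleteBipartiteHost

open Vale.Agent.Helper21.Sid

variable {V W : Type} [Fintype V] [Fintype W] [DecidableEq V] [DecidableEq W]

/-- homomorphisms as a subtype of functions -/
def homEquiv (H : SimpleGraph V) (G : SimpleGraph W) :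
    (H →g G) ≃ {f : V → W // ∀ a b, H.Adj a b → G.Adj (f a) (f b)} where
  toFun φ := ⟨φ, fun _ _ h => φ.map_rel h⟩
  invFun f := ⟨f.1, fun {a b} h => f.2 a b h⟩
  left_inv φ := by ext; rfl
  right_inv f := rfl

lemma proper_of_coloring (H : SimpleGraph V) [DecidableRel H.Adj] (π : V → Bool) :
    π ∈ proper H.edgeFinset ↔ ∀ a b, H.Adj a b → π a ≠ π b := by
  rw [mem_proper]
  constructor
  · intro h a b hab
    have := h s(a, b) (by rw [SimpleGraph.mem_edgeFinset]; exact hab)
    simpa [Sym2.map_mk, Sym2.mk_isDiag_iff] using this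
  · intro h e he
    induction e using Sym2.ind with
    | _ a b =>
      rw [SimpleGraph.mem_edgeFinset] at he
      simpa [Sym2.map_mk, Sym2.mk_isDiag_iff] using h a b he

lemma card_hom (H : SimpleGraph V) [DecidableRel H.Adj] (G : SimpleGraph W) [DecidableRel G.Adj]
    (A : Finset W) (hG : ∀ u v, G.Adj u v ↔ (u ∈ A ↔ v ∉ A)) :
    Fintype.card (H →g G)
      = ∑ π ∈ proper H.edgeFinset,
          ∏ v, (if π v then A.card else (univ.filter (fun w => w ∉ A)).card) := by
  rw [Fintype.card_congr (homEquiv H G), Fintype.card_subtype]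
  have hmaps : Set.MapsTo (fun (f : V → W) (v : V) => decide (f v ∈ A))
      ↑(univ.filter (fun f : V → W => ∀ a b, H.Adj a b → G.Adj (f a) (f b)))
      ↑(proper H.edgeFinset) := by
    intro f hf
    rw [Finset.mem_coe, Finset.mem_filter] at hf
    replace hf := hf.2
    rw [Finset.mem_coe]
    rw [proper_of_coloring]
    intro a b hab
    have := (hG _ _).mp (hf a b hab)
    by_cases h1 : f a ∈ A <;> by_cases h2 : f b ∈ A <;> simp_all
  rw [Finset.card_eq_sum_card_fiberwise hmaps]
  refine Finset.sum_congr rfl (fun π hπ => ?_)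
  rw [proper_of_coloring] at hπ
  have hfib : (univ.filter (fun f : V → W => ∀ a b, H.Adj a b → G.Adj (f a) (f b))).filter
      (fun f => (fun (v : V) => decide (f v ∈ A)) = π)
      = Fintype.piFinset (fun v => univ.filter (fun w => decide (w ∈ A) = π v)) := by
    ext f
    simp only [Finset.mem_filter, Finset.mem_univ, true_and, Fintype.mem_piFinset]
    constructor
    · rintro ⟨_, h2⟩ v
      exact congrFun h2 v
    · intro h
      refine ⟨fun a b hab => ?_, funext h⟩
      rw [hG]
      have h3 := hπ a b hab
      rw [← h a, ← h b] at h3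
      by_cases h1 : f a ∈ A <;> by_cases h2 : f b ∈ A <;> simp [h1, h2] at h3 ⊢
  rw [hfib, Fintype.card_piFinset]
  refine Finset.prod_congr rfl (fun v _ => ?_)
  cases hv : π v
  · simp
  · simp

lemma card_edges (G : SimpleGraph W) [DecidableRel G.Adj]
    (A : Finset W) (hG : ∀ u v, G.Adj u v ↔ (u ∈ A ↔ v ∉ A)) :
    2 * G.edgeFinset.card = 2 * (A.card * (univ.filter (fun w => w ∉ A)).card) := by
  rw [← SimpleGraph.sum_degrees_eq_twice_card_edges]
  have hdeg : ∀ v ∈ (univ : Finset W), G.degree v
      = if v ∈ A then (univ.filter (fun w => w ∉ A)).card else A.card := by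
    intro v _
    rw [← SimpleGraph.card_neighborFinset_eq_degree, SimpleGraph.neighborFinset_eq_filter]
    split_ifs with h
    · congr 1
      ext w
      simp [hG, h]
    · congr 1
      ext w
      simp [hG, h]
  rw [Finset.sum_congr rfl hdeg, Finset.sum_ite, Finset.sum_const, Finset.sum_const]
  have h1 : (univ.filter (fun w => w ∈ A)) = A := by ext w; simp
  rw [h1]
  simp only [smul_eq_mul]
  ring

/-- **Sidorenko's inequality for complete bipartite hosts.**  For every bipartite graph `H`
and every complete bipartite graph `G` (its two parts being `A` and the complement of `A`, of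
arbitrary sizes), `t(H,G) ≥ p(G)^{|E(H)|}`. -/
theorem result (V W : Type) [Fintype V] [Fintype W] [DecidableEq V] [DecidableEq W] [Nonempty W]
    (H : SimpleGraph V) [DecidableRel H.Adj] (G : SimpleGraph W) [DecidableRel G.Adj]
    (hH : H.IsBipartite) (A : Finset W) (hG : ∀ u v, G.Adj u v ↔ (u ∈ A ↔ v ∉ A)) :
    ((2 * G.edgeFinset.card : ℝ) / (Fintype.card W) ^ 2) ^ H.edgeFinset.card
      ≤ (Fintype.card (H →g G) : ℝ) / (Fintype.card W) ^ Fintype.card V := by
  classical
  -- a proper two-colouring of H
  obtain ⟨c⟩ := hH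
  have h0 : (fun v => decide (c v = 0)) ∈ proper H.edgeFinset := by
    rw [proper_of_coloring]
    intro a b hab
    have hne := c.valid hab
    have h2 : ∀ i j : Fin 2, i ≠ j → decide (i = 0) ≠ decide (j = 0) := by decide
    exact h2 _ _ hne
  set s := A.card with hs
  set t := (univ.filter (fun w => w ∉ A)).card with ht
  have hN : Fintype.card W = s + t := by
    rw [hs, ht, ← Finset.card_univ]
    have h1 : (univ.filter (fun w => w ∈ A)) = A := by ext w; simp
    have := Finset.card_filter_add_card_filter_not (s := (univ : Finset W)) (fun w => w ∈ A)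
    rw [h1] at this
    exact this.symm
  have hNpos : (0 : ℝ) < (Fintype.card W : ℝ) := by
    exact_mod_cast Fintype.card_pos
  have hkey := weighted_count H.edgeFinset h0 (x := (s : ℝ)) (y := (t : ℝ))
    (Nat.cast_nonneg _) (Nat.cast_nonneg _)
  have hcard : (Fintype.card (H →g G) : ℝ)
      = ∑ π ∈ proper H.edgeFinset, ∏ v, (if π v then (s : ℝ) else (t : ℝ)) := by
    rw [card_hom H G A hG]
    push_cast
    refine Finset.sum_congr rfl (fun π _ => Finset.prod_congr rfl (fun v _ => ?_))
    split_ifs <;> rfl
  have hedges : (2 * G.edgeFinset.card : ℝ) = 2 * ((s : ℝ) * (t : ℝ)) := by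
    have := card_edges G A hG
    exact_mod_cast this
  have hNr : (Fintype.card W : ℝ) = (s : ℝ) + (t : ℝ) := by
    rw [hN]; push_cast; rfl
  rw [hedges, hcard, div_pow, ← pow_mul, div_le_div_iff₀ (by positivity) (by positivity), hNr]
  rw [mul_comm] at hkey
  linarith [hkey]

end Vale.Agent.Results.P050.CompleteBipartiteHost
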