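import Mathlib
import Vale.Agent.Results.P050.CompleteBipartiteHost

open Finset

namespace Vale.Agent.Results.P050.CompleteBipartiteExplicit

/-- **Sidorenko's inequality against the complete bipartite graphs `K_{a,b}`.**
For every finite bipartite graph `H` and all part sizes `a`, `b` (not both zero), with
`G = K_{a,b}` (the library's complete bipartite graph on `Fin a ⊕ Fin b`, which has
`a + b` vertices and `a * b` edges, so `p(G) = 2ab/(a+b)^2`):
`t(H,G) = hom(H,G) / (a+b)^{|V(H)|} ≥ (2ab/(a+b)^2)^{|E(H)|}`. -/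
theorem result (V : Type) [Fintype V] [DecidableEq V] (H : SimpleGraph V) [DecidableRel H.Adj]
    (hH : H.IsBipartite) (a b : ℕ) (hab : 0 < a + b) :
    ((2 * ((a : ℝ) * (b : ℝ))) / ((a : ℝ) + (b : ℝ)) ^ 2) ^ H.edgeFinset.card
      ≤ (Nat.card (H →g completeBipartiteGraph (Fin a) (Fin b)) : ℝ)
          / ((a : ℝ) + (b : ℝ)) ^ Fintype.card V := by
  classical
  have : Nonempty (Fin a ⊕ Fin b) := by
    rcases Nat.eq_zero_or_pos a with h | h
    · have hb : 0 < b := by omega
      exact ⟨Sum.inr ⟨0, hb⟩⟩
    · exact ⟨Sum.inl ⟨0, h⟩⟩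
  set G : SimpleGraph (Fin a ⊕ Fin b) := completeBipartiteGraph (Fin a) (Fin b) with hGdef
  set A : Finset (Fin a ⊕ Fin b) := univ.filter (fun w => w.isLeft = true) with hA
  have hG : ∀ u v, G.Adj u v ↔ (u ∈ A ↔ v ∉ A) := by
    intro u v
    rw [hGdef, hA]
    cases u <;> cases v <;> simp [completeBipartiteGraph]
  have key := Vale.Agent.Results.P050.CompleteBipartiteHost.result V (Fin a ⊕ Fin b) H G hH A hG
  have hedges := Vale.Agent.Results.P050.CompleteBipartiteHost.card_edges G A hG
  have hAcard : A.card = a := by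
    rw [hA]
    have : (univ.filter (fun w : Fin a ⊕ Fin b => w.isLeft = true))
        = (univ : Finset (Fin a)).map ⟨Sum.inl, Sum.inl_injective⟩ := by
      ext w
      cases w <;> simp
    rw [this, Finset.card_map, Finset.card_univ, Fintype.card_fin]
  have hBcard : (univ.filter (fun w : Fin a ⊕ Fin b => w ∉ A)).card = b := by
    have : (univ.filter (fun w : Fin a ⊕ Fin b => w ∉ A))
        = (univ : Finset (Fin b)).map ⟨Sum.inr, Sum.inr_injective⟩ := by
      ext w
      cases w <;> simp [hA]
    rw [this, Finset.card_map, Finset.card_univ, Fintype.card_fin]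
  rw [hAcard, hBcard] at hedges
  have hW : Fintype.card (Fin a ⊕ Fin b) = a + b := by
    rw [Fintype.card_sum, Fintype.card_fin, Fintype.card_fin]
  have h2 : (2 * (G.edgeFinset.card : ℝ)) = 2 * ((a : ℝ) * (b : ℝ)) := by
    exact_mod_cast hedges
  rw [h2, hW] at key
  rw [Nat.card_eq_fintype_card]
  push_cast at key
  convert key using 2
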